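import Vale.Agent.P147.Bd3.B4

open MeasureTheory Vale.Agent.P147

namespace Vale.Agent.Results.P147.ZeroOne

/-- The directional zero-one law for random walk in an iid elliptic random environment, in every
dimension at least two and every real direction. -/
theorem result (d : ℕ) (hd : 2 ≤ d) (μ : Measure (Row d)) [IsProbabilityMeasure μ]
    (hμ : Elliptic μ) (v : Fin d → ℝ) :
    annealed μ 0 (Escape v) = 0 ∨ annealed μ 0 (Escape v) = 1 :=
  Z.zero_one μ hd hμ v

end Vale.Agent.Results.P147.ZeroOne
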